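import Vale.Agent.Results.P345.ConstantFold
import Vale.Agent.Results.P345.InjectiveValues

/-!
Both our results on single-fold Diophantine representations in one statement.
-/

namespace Vale.Agent.Results.P345.AAllResults

open MvPolynomial Vale.Agent.Lib.P345

/-- (1) If `P` is a Diophantine representation of `S ⊆ ℕ^n` such that for every `a ∈ S` the
equation `P(a, w) = 0` has exactly `c` solutions `w ∈ ℕ^m`, where `c ≥ 1` does not depend on `a`,
then `S` has a single-fold Diophantine representation.
(2) A set `S` of natural numbers has a single-fold Diophantine representation if and only if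
there is an integer polynomial `Q` in finitely many variables such that `S` is the set of
non-negative values of `Q` at natural arguments and every non-negative value of `Q` is taken at
exactly one point of `ℕ^m`. -/
theorem result :
    (∀ (n m c : ℕ), 1 ≤ c → ∀ (S : Set (Fin n → ℕ)) (P : MvPolynomial (Fin n ⊕ Fin m) ℤ),
      IsRep S P → (∀ a ∈ S, {w : Fin m → ℕ | evalAt P a w = 0}.ncard = c) →
      HasSingleFoldRep S) ∧
    (∀ S : Set ℕ, HasSingleFoldRep {a : Fin 1 → ℕ | a 0 ∈ S} ↔
      ∃ (m : ℕ) (Q : MvPolynomial (Fin m) ℤ),
        (∀ s : ℕ, s ∈ S ↔ ∃ x : Fin m → ℕ, eval (fun i => (x i : ℤ)) Q = (s : ℤ)) ∧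
        (∀ x y : Fin m → ℕ, 0 ≤ eval (fun i => (x i : ℤ)) Q →
          eval (fun i => (x i : ℤ)) Q = eval (fun i => (y i : ℤ)) Q → x = y)) :=
  ⟨fun _ _ c hc S P hrep hfold =>
      Vale.Agent.Results.P345.ConstantFold.result c hc S P hrep hfold,
    fun S => Vale.Agent.Results.P345.InjectiveValues.result S⟩

end Vale.Agent.Results.P345.AAllResults
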